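import Vale.Agent.P195.Simples
import Mathlib.LinearAlgebra.FiniteDimensional.Basic
import Mathlib.Order.Filter.AtTopBot.Basic

/-!
Radical cube zero: a minimal syzygy sequence with the extension properties of a
self-orthogonal semi-Gorenstein-projective module cannot exist.
-/

universe u v

namespace Vale.Agent.P195

variable (R : Type u) [Ring R]

/-- A minimal syzygy sequence inside free modules, with extension properties. -/
structure Seq where
  P : ℕ → Type u
  addP : ∀ i, AddCommGroup (P i)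
  modP : ∀ i, Module R (P i)
  finP : ∀ i, Module.Finite R (P i)
  projP : ∀ i, Module.Projective R (P i)
  X : ∀ i, Submodule R (P i)
  small : ∀ i, X i ≤ rad R (P i)
  π : ∀ i, P (i + 1) →ₗ[R] X i
  surj : ∀ i, Function.Surjective (π i)
  ker : ∀ i, LinearMap.ker (π i) = X (i + 1)
  ne : ∀ i, X i ≠ ⊥
  extProj : ∀ i (Q : Type u) [AddCommGroup Q] [Module R Q] [Module.Finite R Q]
    [Module.Projective R Q],
    ∀ f : X i →ₗ[R] Q, ∃ g : P i →ₗ[R] Q, g ∘ₗ (X i).subtype = f
  extSelf : ∀ i b, b < i → ∀ f : X i →ₗ[R] X b, ∃ g : P i →ₗ[R] X b, g ∘ₗ (X i).subtype = f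

variable {R}

theorem rad_rad_of_le (hJ : Ring.jacobson R ^ 3 = ⊥) {Y : Type*} [AddCommGroup Y] [Module R Y]
    {N : Submodule R Y} (hN : N ≤ rad R Y) : rad R (rad R N) = ⊥ := by
  apply rad_coe_eq_bot
  apply Submodule.map_injective_of_injective N.injective_subtype
  rw [Submodule.map_smul'', map_subtype_rad, Submodule.map_bot, eq_bot_iff]
  calc Ring.jacobson R • Ring.jacobson R • N
      ≤ Ring.jacobson R • Ring.jacobson R • rad R Y :=
        smul_mono_right _ (smul_mono_right _ hN)
    _ = (Ring.jacobson R ^ 3) • (⊤ : Submodule R Y) := by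
        rw [show 3 = 2 + 1 from rfl, Submodule.pow_succ, Submodule.mul_smul,
          show 2 = 1 + 1 from rfl, Submodule.pow_succ, Submodule.mul_smul, Submodule.pow_one, rad]
    _ = ⊥ := by rw [hJ, Submodule.bot_smul]

variable {k : Type v} [CommRing k] [IsArtinianRing k] [Algebra k R] [Module.Finite k R]
variable (S : Seq R)

attribute [instance] Seq.addP Seq.modP Seq.finP Seq.projP

/-- The action of `k` through the structure map. -/
noncomputable instance Seq.kmod (i : ℕ) : Module k (S.P i) :=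
  Module.compHom (S.P i) (algebraMap k R)

instance Seq.ktower (i : ℕ) : IsScalarTower k R (S.P i) :=
  ⟨fun c r x => by
    change (c • r) • x = algebraMap k R c • r • x
    rw [Algebra.smul_def, mul_smul]⟩

/-- The short exact sequence of Hom groups out of one step of the sequence. -/
theorem hom_step (i : ℕ) {Y : Type u} [AddCommGroup Y] [Module R Y] [Module k Y]
    [IsScalarTower k R Y] [Module.Finite R Y]
    (hext : ∀ f : S.X (i + 1) →ₗ[R] Y, ∃ g : S.P (i + 1) →ₗ[R] Y,
      g ∘ₗ (S.X (i + 1)).subtype = f) :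
    ln k (S.P (i + 1) →ₗ[R] Y) = ln k (S.X i →ₗ[R] Y) + ln k (S.X (i + 1) →ₗ[R] Y) := by
  have : IsArtinianRing R := IsArtinianRing.of_finite k R
  refine ln_exact (LinearMap.lcomp k Y (S.π i)) (LinearMap.lcomp k Y (S.X (i + 1)).subtype)
    ?_ hext ?_
  · exact fun f g h => LinearMap.ext fun x => by
      obtain ⟨y, rfl⟩ := S.surj i x
      exact LinearMap.congr_fun h y
  · intro g
    constructor
    · intro h
      have hk : LinearMap.ker (S.π i) ≤ LinearMap.ker g := by
        intro x hx
        rw [S.ker i] at hx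
        exact LinearMap.congr_fun h ⟨x, hx⟩
      refine ⟨((LinearMap.ker (S.π i)).liftQ g hk) ∘ₗ
        ((S.π i).quotKerEquivOfSurjective (S.surj i)).symm.toLinearMap, ?_⟩
      ext x
      have hx : ((S.π i).quotKerEquivOfSurjective (S.surj i)).symm (S.π i x) =
          Submodule.Quotient.mk x := by
        rw [LinearEquiv.symm_apply_eq]
        rfl
      simp [hx]
    · rintro ⟨f, rfl⟩
      ext x
      have hx : S.π i x = 0 := by
        rw [← LinearMap.mem_ker, S.ker i]
        exact x.2
      simp [hx]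

/-- Maps into a module killed by `J` see only the projective cover. -/
theorem hom_cover (i : ℕ) {Y : Type u} [AddCommGroup Y] [Module R Y] [Module k Y]
    [IsScalarTower k R Y] (hY : rad R Y = ⊥) :
    ln k (S.X i →ₗ[R] Y) = ln k (S.P (i + 1) →ₗ[R] Y) := by
  refine ln_congr (LinearEquiv.ofBijective (LinearMap.lcomp k Y (S.π i)) ⟨?_, ?_⟩)
  · exact fun f g h => LinearMap.ext fun x => by
      obtain ⟨y, rfl⟩ := S.surj i x
      exact LinearMap.congr_fun h y
  · intro g
    have hk : LinearMap.ker (S.π i) ≤ LinearMap.ker g :=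
      ((S.ker i).le.trans (S.small (i + 1))).trans (rad_le_ker_of_rad_eq_bot g hY)
    refine ⟨((LinearMap.ker (S.π i)).liftQ g hk) ∘ₗ
      ((S.π i).quotKerEquivOfSurjective (S.surj i)).symm.toLinearMap, ?_⟩
    ext x
    have hx : ((S.π i).quotKerEquivOfSurjective (S.surj i)).symm (S.π i x) =
        Submodule.Quotient.mk x := by
      rw [LinearEquiv.symm_apply_eq]
      rfl
    simp [hx]

/-- A projective indecomposable modulo the square of the radical is a quotient of at most one
term of the sequence. -/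
theorem once [IsArtinianRing R] (hJ : Ring.jacobson R ^ 3 = ⊥) {Q : Type u} [AddCommGroup Q]
    [Module R Q] [Module.Projective R Q] {T : Type u} [AddCommGroup T] [Module R T]
    [Nontrivial T] (hT : rad R T = ⊥) (σ : Q →ₗ[R] T) (hσ : Function.Surjective σ)
    {a b : ℕ} (hab : a < b)
    (φa : S.X a →ₗ[R] Q ⧸ (rad R (rad R Q)).map (rad R Q).subtype) (ha : Function.Surjective φa)
    (φb : S.X b →ₗ[R] Q ⧸ (rad R (rad R Q)).map (rad R Q).subtype) (hb : Function.Surjective φb) :
    False := by
  obtain ⟨ψ, hψ⟩ := Module.projective_lifting_property φa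
    ((rad R (rad R Q)).map (rad R Q).subtype).mkQ ha
  have hk : (rad R (rad R Q)).map (rad R Q).subtype ≤ LinearMap.ker ψ := by
    rintro _ ⟨y, hy, rfl⟩
    let ψ' : rad R Q →ₗ[R] rad R (S.X a) :=
      (ψ ∘ₗ (rad R Q).subtype).codRestrict _ fun x => by exact map_mem_rad ψ x.2
    have h1 := map_mem_rad ψ' hy
    rw [rad_rad_of_le hJ (S.small a), Submodule.mem_bot] at h1
    exact congr_arg Subtype.val h1
  let sec := ((rad R (rad R Q)).map (rad R Q).subtype).liftQ ψ hk
  obtain ⟨g, hg⟩ := S.extSelf b a hab (sec ∘ₗ φb)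
  have hsec : ∀ q, φa (sec q) = q := by
    intro q
    obtain ⟨q, rfl⟩ := Submodule.mkQ_surjective _ q
    exact LinearMap.congr_fun hψ q
  have htop : rad R (Q ⧸ (rad R (rad R Q)).map (rad R Q).subtype) = ⊤ := by
    rw [eq_top_iff]
    intro q _
    obtain ⟨x, rfl⟩ := hb q
    rw [← hsec (φb x)]
    apply map_mem_rad
    rw [← LinearMap.comp_apply, ← hg, LinearMap.comp_apply]
    exact map_mem_rad g (S.small b x.2)
  let σ' := ((rad R (rad R Q)).map (rad R Q).subtype).liftQ σ (by
    rintro _ ⟨y, -, rfl⟩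
    exact rad_le_ker_of_rad_eq_bot σ hT y.2)
  obtain ⟨t, ht⟩ := exists_ne (0 : T)
  obtain ⟨q, rfl⟩ := hσ t
  have h0 := (eq_bot_of_rad_eq_top htop).ge
    (trivial : Submodule.Quotient.mk (p := (rad R (rad R Q)).map (rad R Q).subtype) q ∈ ⊤)
  rw [Submodule.mem_bot] at h0
  apply ht
  have : σ' (Submodule.Quotient.mk q) = 0 := by rw [h0, map_zero]
  simpa [σ'] using this

omit [IsArtinianRing k] [Module.Finite k R] in
/-- If `f` misses the radical of a local module, it is onto. -/
theorem surj_of_not_mem [IsArtinianRing R] {Q T W : Type u} [AddCommGroup Q] [Module R Q]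
    [AddCommGroup T] [Module R T] [IsSimpleModule R T] [AddCommGroup W] [Module R W]
    (σ : Q →ₗ[R] T) (hk : LinearMap.ker σ = rad R Q) (f : W →ₗ[R] Q) (w : W)
    (hw : f w ∉ rad R Q) : Function.Surjective f := by
  refine surjective_of_comp σ hk.le f (LinearMap.surjective_of_ne_zero fun h => hw ?_)
  rw [← hk]
  exact LinearMap.congr_fun h w

/-- The backward recursion. -/
theorem backward (hJ : Ring.jacobson R ^ 3 = ⊥) (Q : Type u) [AddCommGroup Q] [Module R Q]
    [Module k Q] [IsScalarTower k R Q] [Module.Finite R Q] [Module.Projective R Q] {T : Type u} [AddCommGroup T] [Module R T] [Module k T]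
    [IsScalarTower k R T] [IsSimpleModule R T] (σ : Q →ₗ[R] T) (hσ : Function.Surjective σ)
    (hker : LinearMap.ker σ = rad R Q) (i : ℕ)
    (hnot : ∀ j, i ≤ j → ∀ φ : S.X j →ₗ[R] Q ⧸ (rad R (rad R Q)).map (rad R Q).subtype,
      ¬ Function.Surjective φ) :
    (ln k (S.P (i + 1) →ₗ[R] T) : ℚ) =
      ln k (S.P (i + 2) →ₗ[R] rad R Q) - ln k (S.P (i + 2) →ₗ[R] rad R (rad R Q))
        - ln k (S.P (i + 3) →ₗ[R] rad R (rad R Q)) := by
  have : IsArtinianRing R := IsArtinianRing.of_finite k R
  have hA : rad R (rad R (rad R Q)) = ⊥ := rad_rad_of_le hJ le_rfl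
  -- maps from a term into `Q` land in the radical
  have hin : ∀ j, i ≤ j → ∀ (f : S.X j →ₗ[R] Q) x, f x ∈ rad R Q := by
    intro j hj f x
    by_contra hx
    exact hnot j hj (Submodule.mkQ _ ∘ₗ f)
      ((Submodule.mkQ_surjective _).comp (surj_of_not_mem σ hker f x hx))
  have step : ∀ j, i ≤ j →
      ln k (S.P (j + 1) →ₗ[R] rad R Q) =
        ln k (S.X j →ₗ[R] Q) + ln k (S.X (j + 1) →ₗ[R] rad R (rad R Q)) := by
    intro j hj
    let F : (S.X j →ₗ[R] Q) →ₗ[k] (S.P (j + 1) →ₗ[R] rad R Q) :=
      { toFun := fun f => (f ∘ₗ S.π j).codRestrict _ fun x => hin j hj f _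
        map_add' := fun f g => by ext; rfl
        map_smul' := fun c f => by ext; rfl }
    let G : (S.P (j + 1) →ₗ[R] rad R Q) →ₗ[k] (S.X (j + 1) →ₗ[R] rad R (rad R Q)) :=
      { toFun := fun g => (g ∘ₗ (S.X (j + 1)).subtype).codRestrict _
          fun x => map_mem_rad g (S.small (j + 1) x.2)
        map_add' := fun f g => by ext; rfl
        map_smul' := fun c f => by ext; rfl }
    refine ln_exact F G ?_ ?_ ?_
    · intro f g h
      ext x
      obtain ⟨y, rfl⟩ := S.surj j x
      exact congr_arg Subtype.val (LinearMap.congr_fun h y)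
    · intro y
      obtain ⟨g, hg⟩ := S.extProj (j + 1) Q
        ((rad R Q).subtype ∘ₗ (rad R (rad R Q)).subtype ∘ₗ y)
      have hgX : ∀ x : S.X (j + 1), g x = ((y x : rad R Q) : Q) :=
        fun x => LinearMap.congr_fun hg x
      have hgr : ∀ x, g x ∈ rad R Q := by
        intro x
        by_contra hx
        have hs := surj_of_not_mem σ hker g x hx
        have hk' : LinearMap.ker (S.π j) ≤
            LinearMap.ker (((rad R (rad R Q)).map (rad R Q).subtype).mkQ ∘ₗ g) := by
          intro z hz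
          rw [S.ker j] at hz
          rw [LinearMap.mem_ker, LinearMap.comp_apply, Submodule.mkQ_apply,
            Submodule.Quotient.mk_eq_zero]
          exact ⟨y ⟨z, hz⟩, (y ⟨z, hz⟩).2, (hgX ⟨z, hz⟩).symm⟩
        refine hnot j hj (((LinearMap.ker (S.π j)).liftQ _ hk') ∘ₗ
          ((S.π j).quotKerEquivOfSurjective (S.surj j)).symm.toLinearMap) ?_
        rw [LinearMap.coe_comp]
        refine Function.Surjective.comp ?_ (LinearEquiv.surjective _)
        intro q
        obtain ⟨q, rfl⟩ := Submodule.mkQ_surjective _ q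
        obtain ⟨p, rfl⟩ := hs q
        exact ⟨Submodule.Quotient.mk p, rfl⟩
      exact ⟨g.codRestrict _ hgr, LinearMap.ext fun x => Subtype.ext (Subtype.ext (hgX x))⟩
    · intro g
      constructor
      · intro h
        have hk : LinearMap.ker (S.π j) ≤ LinearMap.ker g := by
          intro z hz
          rw [S.ker j] at hz
          exact congr_arg Subtype.val (LinearMap.congr_fun h ⟨z, hz⟩)
        refine ⟨(rad R Q).subtype ∘ₗ ((LinearMap.ker (S.π j)).liftQ g hk) ∘ₗ
          ((S.π j).quotKerEquivOfSurjective (S.surj j)).symm.toLinearMap, ?_⟩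
        apply LinearMap.ext
        intro x
        apply Subtype.ext
        have hx : ((S.π j).quotKerEquivOfSurjective (S.surj j)).symm (S.π j x) =
            Submodule.Quotient.mk x := by
          rw [LinearEquiv.symm_apply_eq]
          rfl
        simp [F, hx]
      · rintro ⟨f, rfl⟩
        apply LinearMap.ext
        intro x
        have hx : S.π j x = 0 := by
          rw [← LinearMap.mem_ker, S.ker j]
          exact x.2
        apply Subtype.ext
        apply Subtype.ext
        simp [F, G, hx]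
  have e1 := hom_step (k := k) S i (Y := Q) (S.extProj (i + 1) Q)
  have e2 := ln_hom_proj k (S.P (i + 1)) (rad R Q)
  have e3 : ln k (S.P (i + 1) →ₗ[R] Q ⧸ rad R Q) = ln k (S.P (i + 1) →ₗ[R] T) :=
    ln_hom_congr (Submodule.quotEquivOfEq _ _ hker.symm ≪≫ₗ σ.quotKerEquivOfSurjective hσ)
  have e4 := step i le_rfl
  have e5 := step (i + 1) (Nat.le_succ i)
  have e6 := hom_cover (k := k) S (i + 1) hA
  have e7 := hom_cover (k := k) S (i + 2) hA
  push_cast [← Nat.cast_inj (R := ℚ)] at e1 e2 e3 e4 e5 e6 e7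
  linarith

/-- A projective cover, as a bundled object. -/
structure Cover (k : Type v) [CommRing k] (R : Type u) [Ring R] [Algebra k R] (T : Type u)
    [AddCommGroup T] [Module R T] where
  Q : Type u
  addQ : AddCommGroup Q
  modQ : Module R Q
  kmodQ : Module k Q
  towQ : IsScalarTower k R Q
  finQ : Module.Finite R Q
  projQ : Module.Projective R Q
  σ : Q →ₗ[R] T
  surjσ : Function.Surjective σ
  kerσ : LinearMap.ker σ = rad R Q

attribute [instance] Cover.addQ Cover.modQ Cover.kmodQ Cover.towQ Cover.finQ Cover.projQ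

/-- The linear algebra at the heart of the argument. -/
theorem backward_linear {V : Type*} [AddCommGroup V] [Module ℚ V] [FiniteDimensional ℚ V]
    (w : ℕ → V) (Ψ : V →ₗ[ℚ] V) (hΨ : ∀ i, Ψ (w (i + 1)) = w i) (F : V →ₗ[ℚ] ℚ)
    (hF : ∀ i, F (w (i + 1)) = 0) : F (w 0) = 0 := by
  let W₁ := Submodule.span ℚ (Set.range fun i => w (i + 1))
  let W₀ := Submodule.span ℚ (Set.range w)
  have hle : W₁ ≤ W₀ := Submodule.span_mono (by rintro _ ⟨i, rfl⟩; exact ⟨i + 1, rfl⟩)
  have hmap : W₁.map Ψ = W₀ := by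
    simp only [W₁, W₀, Submodule.map_span, ← Set.range_comp, Function.comp_def, hΨ]
  have heq : W₁ = W₀ := Submodule.eq_of_le_of_finrank_le hle
    (hmap ▸ Submodule.finrank_map_le Ψ W₁)
  have h0 : w 0 ∈ W₁ := heq ▸ Submodule.subset_span ⟨0, rfl⟩
  have hW : W₁ ≤ LinearMap.ker F := Submodule.span_le.2 (by rintro _ ⟨i, rfl⟩; exact hF i)
  exact hW h0

include k S in
/-- No such sequence exists when the radical cubes to zero. -/
theorem Seq.false (hJ : Ring.jacobson R ^ 3 = ⊥) : False := by
  classical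
  have : IsArtinianRing R := IsArtinianRing.of_finite k R
  -- projective covers of the simple factors
  have hT : ∀ v, rad R (Simple R v) = ⊥ := by
    intro v
    rw [eq_bot_iff, rad]
    exact (Submodule.smul_le.2 fun r hr x _ => by
      rw [Module.mem_annihilator.1 (IsSemisimpleModule.jacobson_le_annihilator R (Simple R v) hr) x]
      exact Submodule.zero_mem _)
  have hcov : ∀ v, Nonempty (Cover k R (Simple R v)) := by
    intro v
    obtain ⟨m, Q, σ, hQ, hσ, hk⟩ := exists_cover (R := R) (Simple R v)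
    exact ⟨⟨Q, inferInstance, inferInstance, inferInstance, inferInstance, inferInstance, hQ,
      σ, hσ, le_antisymm hk (rad_le_ker_of_rad_eq_bot σ (hT v))⟩⟩
  let C := fun v => (hcov v).some
  -- eventually no term maps onto a `Q v` modulo the square of the radical
  have hev : ∀ v, ∃ a, ∀ i, a ≤ i →
      ∀ φ : S.X i →ₗ[R] (C v).Q ⧸ (rad R (rad R (C v).Q)).map (rad R (C v).Q).subtype,
        ¬ Function.Surjective φ := by
    intro v
    by_contra h
    push Not at h
    obtain ⟨a, -, φa, ha⟩ := h 0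
    obtain ⟨b, hab, φb, hb⟩ := h (a + 1)
    have := IsSimpleModule.nontrivial R (Simple R v)
    exact once S hJ (hT v) (C v).σ (C v).surjσ (Nat.lt_of_succ_le hab) φa ha φb hb
  choose av hav using hev
  let a := ∑ v, av v
  have hgood : ∀ v i, a ≤ i →
      ∀ φ : S.X i →ₗ[R] (C v).Q ⧸ (rad R (rad R (C v).Q)).map (rad R (C v).Q).subtype,
        ¬ Function.Surjective φ := fun v i hi => hav v i
      ((Finset.single_le_sum (fun _ _ => Nat.zero_le _) (Finset.mem_univ v)).trans hi)
  -- the coordinates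
  let φ : ℕ → Fin (nSimple R) → ℚ := fun i v => (ln k (S.P (i + 1) →ₗ[R] Simple R v) : ℚ)
  choose cR hcR using fun v => exists_coeff R k (rad R (C v).Q)
  choose cA hcA using fun v => exists_coeff R k (rad R (rad R (C v).Q))
  obtain ⟨cT, hcT⟩ := exists_coeff R k (S.X a ⧸ rad R (S.X a))
  obtain ⟨cN, hcN⟩ := exists_coeff R k (rad R (S.X a))
  let w : ℕ → (Fin (nSimple R) → ℚ) × (Fin (nSimple R) → ℚ) :=
    fun i => (φ (a + i), φ (a + i + 1))
  let Ψ : (Fin (nSimple R) → ℚ) × (Fin (nSimple R) → ℚ) →ₗ[ℚ]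
      (Fin (nSimple R) → ℚ) × (Fin (nSimple R) → ℚ) :=
    (LinearMap.pi fun v => (cR v - cA v) ∘ₗ LinearMap.fst ℚ _ _ - cA v ∘ₗ LinearMap.snd ℚ _ _).prod
      (LinearMap.fst ℚ _ _)
  let F : (Fin (nSimple R) → ℚ) × (Fin (nSimple R) → ℚ) →ₗ[ℚ] ℚ :=
    cT ∘ₗ LinearMap.fst ℚ _ _ - cN ∘ₗ LinearMap.snd ℚ _ _
  have hΨ : ∀ i, Ψ (w (i + 1)) = w i := by
    intro i
    refine Prod.ext (funext fun v => ?_) ?_
    · have h := backward (k := k) S hJ (C v).Q (C v).σ (C v).surjσ (C v).kerσ (a + i)
        (fun j hj => hgood v j ((Nat.le_add_right a i).trans hj))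
      rw [hcR v, hcA v, hcA v] at h
      simp only [Ψ, w, φ, LinearMap.prod_apply, LinearMap.coe_fst, LinearMap.coe_snd,
        LinearMap.pi_apply, LinearMap.sub_apply, LinearMap.comp_apply, Function.prod_apply]
      rw [show a + (i + 1) + 1 + 1 = a + i + 3 by omega, show a + (i + 1) + 1 = a + i + 2 by omega]
      linarith [h]
    · rfl
  have hN : rad R (rad R (S.X a)) = ⊥ := rad_rad_of_le hJ (S.small a)
  have hi : ∀ i, a ≤ i → ln k (S.P (i + 1) →ₗ[R] S.X a) =
      ln k (S.X i →ₗ[R] S.X a) + ln k (S.X (i + 1) →ₗ[R] S.X a) := fun i hi =>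
    hom_step (k := k) S i (fun f => S.extSelf (i + 1) a (Nat.lt_succ_of_le hi) f)
  -- for later terms, all maps into `X a` land in the radical
  have hlate : ∀ i, a ≤ i → ln k (S.X (i + 1) →ₗ[R] S.X a) =
      ln k (S.P (i + 2) →ₗ[R] rad R (S.X a)) := by
    intro i hi'
    rw [← hom_cover (k := k) S (i + 1) hN]
    refine (ln_congr (LinearEquiv.ofBijective (post k (S.X (i + 1)) (rad R (S.X a)).subtype)
      ⟨fun f g h => LinearMap.ext fun x => Submodule.injective_subtype _ (LinearMap.congr_fun h x),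
      fun f => ?_⟩)).symm
    obtain ⟨g, hg⟩ := S.extSelf (i + 1) a (Nat.lt_succ_of_le hi') f
    refine ⟨f.codRestrict _ fun x => ?_, by ext; rfl⟩
    rw [← hg, LinearMap.comp_apply]
    exact map_mem_rad g (S.small (i + 1) x.2)
  have hF : ∀ i, F (w (i + 1)) = 0 := by
    intro i
    have e1 := hi (a + i + 1) (by omega)
    have e2 := hlate (a + i) (by omega)
    have e3 := hlate (a + i + 1) (by omega)
    have e4 := ln_hom_proj k (S.P (a + i + 2)) (rad R (S.X a))
    have q1 := hcT (S.P (a + i + 2))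
    have q2 := hcN (S.P (a + i + 3))
    push_cast [← Nat.cast_inj (R := ℚ)] at e1 e2 e3 e4
    simp only [F, w, φ, LinearMap.sub_apply, LinearMap.comp_apply, LinearMap.coe_fst,
      LinearMap.coe_snd]
    rw [show a + (i + 1) + 1 + 1 = a + i + 3 by omega, show a + (i + 1) + 1 = a + i + 2 by omega]
    rw [show a + i + 1 + 1 = a + i + 2 by omega] at e1 e3
    rw [show a + i + 1 + 2 = a + i + 3 by omega] at e3
    linarith [q1, q2, e1, e2, e3, e4]
  have hpos : F (w 0) ≠ 0 := by
    have e1 := hi a le_rfl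
    have e3 := hlate a le_rfl
    have e4 := ln_hom_proj k (S.P (a + 1)) (rad R (S.X a))
    have e5 : ln k (S.P (a + 1) →ₗ[R] rad R (S.X a)) < ln k (S.X a →ₗ[R] S.X a) := by
      rw [← hom_cover (k := k) S a hN]
      refine ln_lt_of_not_surjective (post k (S.X a) (rad R (S.X a)).subtype)
        (fun f g h => LinearMap.ext fun x =>
          Submodule.injective_subtype _ (LinearMap.congr_fun h x)) fun hs => ?_
      obtain ⟨f, hf⟩ := hs LinearMap.id
      have htop : rad R (S.X a) = ⊤ := eq_top_iff.2 fun x _ => by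
        have : ((f x : rad R (S.X a)) : S.X a) = x := LinearMap.congr_fun hf x
        rw [← this]
        exact (f x).2
      have := eq_bot_of_rad_eq_top htop
      exact S.ne a (Submodule.eq_bot_iff _ |>.2 fun x hx => congr_arg Subtype.val
        ((Submodule.mem_bot R).1 (this.ge (trivial : (⟨x, hx⟩ : S.X a) ∈ ⊤))))
    have q1 := hcT (S.P (a + 1))
    have q2 := hcN (S.P (a + 2))
    have e5' := (Nat.cast_lt (α := ℚ)).2 e5
    push_cast [← Nat.cast_inj (R := ℚ)] at e1 e3 e4
    simp only [F, w, φ, LinearMap.sub_apply, LinearMap.comp_apply, LinearMap.coe_fst,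
      LinearMap.coe_snd, add_zero]
    intro h
    linarith [q1, q2, e1, e3, e4, e5', h]
  exact hpos (backward_linear w Ψ hΨ F hF)

end Vale.Agent.P195
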