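import Vale.Agent.P195.Core
import Mathlib.Algebra.Category.ModuleCat.Ext.HasExt
import Mathlib.Algebra.Homology.DerivedCategory.Ext.ExactSequences
import Mathlib.Algebra.Homology.ShortComplex.ModuleCat
import Mathlib.Algebra.Category.ModuleCat.Projective

/-!
From vanishing of `Ext` to the extension properties of a minimal syzygy sequence.
-/

universe u v

namespace Vale.Agent.P195

open CategoryTheory Abelian

variable {R : Type u} [Ring R]

/-- Vanishing of `Ext` in all positive degrees. -/
def ExtVanish (X Y : ModuleCat.{u} R) : Prop := ∀ i, Subsingleton (Ext.{u} X Y (i + 1))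

theorem shift {S : ShortComplex (ModuleCat.{u} R)} (hS : S.ShortExact) [Projective S.X₂]
    {Y : ModuleCat.{u} R} (h : ExtVanish S.X₃ Y) :
    ExtVanish S.X₁ Y ∧ ∀ f : S.X₁ ⟶ Y, ∃ g : S.X₂ ⟶ Y, S.f ≫ g = f := by
  constructor
  · intro i
    refine subsingleton_of_forall_eq 0 fun x => ?_
    have := h (i + 1)
    obtain ⟨y, rfl⟩ := Ext.contravariant_sequence_exact₁ hS Y x (Nat.add_comm 1 (i + 1))
      (Subsingleton.elim _ _)
    rw [Ext.eq_zero_of_projective y, Ext.comp_zero]
  · intro f
    have := h 0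
    obtain ⟨y, hy⟩ := Ext.contravariant_sequence_exact₁ hS Y (Ext.mk₀ f) (n₁ := 0 + 1) rfl
      (Subsingleton.elim _ _)
    refine ⟨Ext.addEquiv₀ y, (Ext.mk₀_bijective _ _).1 ?_⟩
    rw [← hy, ← Ext.mk₀_comp_mk₀, Ext.mk₀_addEquiv₀_apply]

/-- Self-orthogonality passes to a syzygy. -/
theorem shift_self {S : ShortComplex (ModuleCat.{u} R)} (hS : S.ShortExact) [Projective S.X₂]
    (h : ExtVanish S.X₃ S.X₃) (h' : ExtVanish S.X₃ S.X₂) : ExtVanish S.X₁ S.X₁ := by
  intro i
  have h2 : Subsingleton (Ext.{u} S.X₃ S.X₁ (i + 1 + 1)) := by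
    refine subsingleton_of_forall_eq 0 fun x => ?_
    have := h' (i + 1)
    have := h i
    obtain ⟨y, rfl⟩ := Ext.covariant_sequence_exact₁ _ hS x (Subsingleton.elim _ _) rfl
    rw [Subsingleton.elim y 0, Ext.zero_comp]
  refine subsingleton_of_forall_eq 0 fun x => ?_
  obtain ⟨y, rfl⟩ := Ext.contravariant_sequence_exact₁ hS S.X₁ x (Nat.add_comm 1 (i + 1))
    (Subsingleton.elim _ _)
  rw [Ext.eq_zero_of_projective y, Ext.comp_zero]

theorem extVanish_proj {X : ModuleCat.{u} R} (h : ExtVanish X (ModuleCat.of R R)) (Q : Type u)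
    [AddCommGroup Q] [Module R Q] [Module.Finite R Q] [Module.Projective R Q] :
    ExtVanish X (ModuleCat.of R Q) := by
  classical
  intro i
  refine subsingleton_of_forall_eq 0 fun x => ?_
  obtain ⟨n, p, hp⟩ := Module.Finite.exists_fin' R Q
  obtain ⟨s, hs⟩ := Module.projective_lifting_property p LinearMap.id hp
  have hid : 𝟙 (ModuleCat.of R Q) = ∑ j : Fin n,
      ModuleCat.ofHom ((LinearMap.proj j) ∘ₗ s) ≫
        ModuleCat.ofHom (p ∘ₗ LinearMap.single R (fun _ : Fin n => R) j) := by
    ext q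
    simp only [ModuleCat.hom_id, LinearMap.id_apply, ModuleCat.hom_sum, LinearMap.coe_sum,
      Finset.sum_apply, ModuleCat.hom_comp, ModuleCat.hom_ofHom, LinearMap.comp_apply,
      LinearMap.proj_apply, LinearMap.coe_single, ← map_sum, Finset.univ_sum_single]
    exact (LinearMap.congr_fun hs q).symm
  rw [← Ext.comp_mk₀_id x, hid, Ext.mk₀_sum, Ext.comp_sum]
  refine Finset.sum_eq_zero fun j _ => ?_
  have := h i
  rw [← Ext.mk₀_comp_mk₀, ← Ext.comp_assoc_of_second_deg_zero,
    Subsingleton.elim (x.comp (Ext.mk₀ (ModuleCat.ofHom (LinearMap.proj j ∘ₗ s)))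
      (add_zero (i + 1))) 0, Ext.zero_comp]

/-- A projective module with a chosen submodule. -/
structure St (R : Type u) [Ring R] where
  P : Type u
  addP : AddCommGroup P
  modP : Module R P
  finP : Module.Finite R P
  projP : Module.Projective R P
  X : Submodule R P
  small : X ≤ rad R P

attribute [instance] St.addP St.modP St.finP St.projP

variable [IsArtinianRing R]

/-- The next projective cover. -/
noncomputable def cov (X : Type u) [AddCommGroup X] [Module R X] [Module.Finite R X] :
    {t : St R // ∃ π : t.P →ₗ[R] X, Function.Surjective π ∧ LinearMap.ker π = t.X} :=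
  Classical.indefiniteDescription _ <| by
    obtain ⟨n, P, π, hP, hπ, hk⟩ := exists_cover (R := R) X
    exact ⟨⟨P, inferInstance, inferInstance, inferInstance, hP, LinearMap.ker π, hk⟩, π, hπ, rfl⟩

variable (M : Type u) [AddCommGroup M] [Module R M] [Module.Finite R M]

/-- The minimal syzygy sequence of `M`. -/
noncomputable def syz (R : Type u) [Ring R] [IsArtinianRing R] (M : Type u) [AddCommGroup M]
    [Module R M] [Module.Finite R M] : ℕ → St R
  | 0 => (cov M).1
  | i + 1 => (cov (R := R) (syz R M i).X).1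

theorem step_ext {P X : Type u} [AddCommGroup P] [Module R P] [Module.Finite R P]
    [Module.Projective R P] [AddCommGroup X] [Module R X]
    (K : Submodule R P) (π : P →ₗ[R] X) (hπ : Function.Surjective π)
    (hk : LinearMap.ker π = K) :
    (∀ (Y : Type u) [AddCommGroup Y] [Module R Y],
      ExtVanish (ModuleCat.of R X) (ModuleCat.of R Y) →
        ExtVanish (ModuleCat.of R K) (ModuleCat.of R Y) ∧
        ∀ f : K →ₗ[R] Y, ∃ g : P →ₗ[R] Y, g ∘ₗ K.subtype = f) ∧
    (ExtVanish (ModuleCat.of R X) (ModuleCat.of R X) →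
      ExtVanish (ModuleCat.of R X) (ModuleCat.of R R) →
        ExtVanish (ModuleCat.of R K) (ModuleCat.of R K)) := by
  subst hk
  have hS := LinearMap.shortExact_shortComplexKer hπ
  have hP : Projective π.shortComplexKer.X₂ :=
    (IsProjective.iff_projective P).1 inferInstance
  constructor
  · intro Y _ _ h
    obtain ⟨h1, h2⟩ := shift hS h
    refine ⟨h1, fun f => ?_⟩
    obtain ⟨g, hg⟩ := h2 (ModuleCat.ofHom f)
    exact ⟨g.hom, congr_arg ModuleCat.Hom.hom hg⟩
  · intro h hR
    exact shift_self hS h (extVanish_proj hR P)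

theorem extVanish_syz (hMM : ExtVanish (ModuleCat.of R M) (ModuleCat.of R M))
    (hMR : ExtVanish (ModuleCat.of R M) (ModuleCat.of R R)) (i : ℕ) :
    ExtVanish (ModuleCat.of R (syz R M i).X) (ModuleCat.of R (syz R M i).X) ∧
      ExtVanish (ModuleCat.of R (syz R M i).X) (ModuleCat.of R R) := by
  induction i with
  | zero =>
    obtain ⟨π, hπ, hk⟩ := (cov (R := R) M).2
    obtain ⟨a, b⟩ := step_ext _ π hπ hk
    exact ⟨b hMM hMR, (a R hMR).1⟩
  | succ i ih =>
    obtain ⟨π, hπ, hk⟩ := (cov (R := R) (syz R M i).X).2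
    obtain ⟨a, b⟩ := step_ext _ π hπ hk
    exact ⟨b ih.1 ih.2, (a R ih.2).1⟩

theorem syz_ext (Y : Type u) [AddCommGroup Y] [Module R Y] (b : ℕ)
    (h : ExtVanish (ModuleCat.of R (syz R M b).X) (ModuleCat.of R Y)) :
    ∀ j, ExtVanish (ModuleCat.of R (syz R M (b + j)).X) (ModuleCat.of R Y) ∧
      ∀ f : (syz R M (b + j + 1)).X →ₗ[R] Y,
        ∃ g : (syz R M (b + j + 1)).P →ₗ[R] Y, g ∘ₗ (syz R M (b + j + 1)).X.subtype = f := by
  intro j
  induction j with
  | zero =>
    obtain ⟨π, hπ, hk⟩ := (cov (R := R) (syz R M b).X).2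
    exact ⟨h, ((step_ext _ π hπ hk).1 Y h).2⟩
  | succ j ih =>
    obtain ⟨π, hπ, hk⟩ := (cov (R := R) (syz R M (b + j)).X).2
    obtain ⟨π', hπ', hk'⟩ := (cov (R := R) (syz R M (b + (j + 1))).X).2
    have h' := ((step_ext _ π hπ hk).1 Y ih.1).1
    exact ⟨h', ((step_ext _ π' hπ' hk').1 Y h').2⟩

theorem projective_of_ext {k : Type v} [CommRing k] [IsArtinianRing k] [Algebra k R]
    [Module.Finite k R] (hJ : Ring.jacobson R ^ 3 = ⊥)
    (hMM : ExtVanish (ModuleCat.of R M) (ModuleCat.of R M))
    (hMR : ExtVanish (ModuleCat.of R M) (ModuleCat.of R R)) : Module.Projective R M := by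
  by_contra hnp
  have hex : ∀ i (Q : Type u) [AddCommGroup Q] [Module R Q] [Module.Finite R Q]
      [Module.Projective R Q], ∀ f : (syz R M i).X →ₗ[R] Q,
      ∃ g : (syz R M i).P →ₗ[R] Q, g ∘ₗ (syz R M i).X.subtype = f := by
    intro i Q _ _ _ _
    cases i with
    | zero =>
      obtain ⟨π, hπ, hk⟩ := (cov (R := R) M).2
      exact ((step_ext _ π hπ hk).1 Q (extVanish_proj hMR Q)).2
    | succ i =>
      have h := (syz_ext M Q i (extVanish_proj (extVanish_syz M hMM hMR i).2 Q) 0).2
      simpa using h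
  have hself : ∀ i b, b < i → ∀ f : (syz R M i).X →ₗ[R] (syz R M b).X,
      ∃ g : (syz R M i).P →ₗ[R] (syz R M b).X, g ∘ₗ (syz R M i).X.subtype = f := by
    intro i b hb
    obtain ⟨j, rfl⟩ : ∃ j, i = b + j + 1 := ⟨i - b - 1, by omega⟩
    exact (syz_ext M _ b (extVanish_syz M hMM hMR b).1 j).2
  let π : ∀ i, (syz R M (i + 1)).P →ₗ[R] (syz R M i).X := fun i => (cov (R := R) (syz R M i).X).2.choose
  have hπ : ∀ i, Function.Surjective (π i) ∧ LinearMap.ker (π i) = (syz R M (i + 1)).X :=
    fun i => (cov (R := R) (syz R M i).X).2.choose_spec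
  have hne : ∀ i, (syz R M i).X ≠ ⊥ := by
    intro i
    induction i with
    | zero =>
      intro h0
      obtain ⟨p, hp, hk⟩ := (cov (R := R) M).2
      exact hnp (Module.Projective.of_equiv (LinearEquiv.ofBijective p
        ⟨LinearMap.ker_eq_bot.1 (hk.trans h0), hp⟩))
    | succ i ih =>
      intro h0
      have : Module.Projective R (syz R M i).X := Module.Projective.of_equiv
        (LinearEquiv.ofBijective (π i) ⟨LinearMap.ker_eq_bot.1 ((hπ i).2.trans h0), (hπ i).1⟩)
      obtain ⟨g, hg⟩ := hex i (syz R M i).X LinearMap.id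
      have htop : rad R (syz R M i).X = ⊤ := eq_top_iff.2 fun x _ => by
        have hx : g x = x := LinearMap.congr_fun hg x
        rw [← hx]
        exact map_mem_rad g ((syz R M i).small x.2)
      refine ih ((Submodule.eq_bot_iff _).2 fun x hx => ?_)
      exact congr_arg Subtype.val ((Submodule.mem_bot R).1
        ((eq_bot_of_rad_eq_top htop).ge (trivial : (⟨x, hx⟩ : (syz R M i).X) ∈ ⊤)))
  let S : Seq R :=
    { P := fun i => (syz R M i).P
      addP := fun i => (syz R M i).addP
      modP := fun i => (syz R M i).modP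
      finP := fun i => (syz R M i).finP
      projP := fun i => (syz R M i).projP
      X := fun i => (syz R M i).X
      small := fun i => (syz R M i).small
      π := π
      surj := fun i => (hπ i).1
      ker := fun i => (hπ i).2
      ne := hne
      extProj := hex
      extSelf := hself }
  exact S.false (k := k) hJ

end Vale.Agent.P195
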