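import Mathlib.RingTheory.Length
import Mathlib.RingTheory.HopkinsLevitzki
import Mathlib.RingTheory.Finiteness.Basic
import Mathlib.RingTheory.SimpleModule.Basic
import Mathlib.Algebra.Module.Projective

/-!
Lengths of Hom groups over an Artin algebra, projective covers, and the radical filtration.
-/

universe u v

namespace Vale.Agent.P195

section rad

variable {R : Type u} [Ring R]

/-- The radical `J • Y` of a module. -/
def rad (R : Type u) [Ring R] (Y : Type*) [AddCommGroup Y] [Module R Y] : Submodule R Y :=
  Ring.jacobson R • ⊤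

variable {Y Z : Type*} [AddCommGroup Y] [Module R Y] [AddCommGroup Z] [Module R Z]

theorem map_rad_le (g : Y →ₗ[R] Z) : (rad R Y).map g ≤ rad R Z := by
  rw [rad, rad, Submodule.map_smul'']
  exact smul_mono_right _ le_top

theorem map_mem_rad (g : Y →ₗ[R] Z) {y : Y} (hy : y ∈ rad R Y) : g y ∈ rad R Z :=
  map_rad_le g ⟨y, hy, rfl⟩

/-- The radical of a submodule, seen in the ambient module. -/
theorem map_subtype_rad (N : Submodule R Y) :
    (rad R N).map N.subtype = Ring.jacobson R • N := by
  rw [rad, Submodule.map_smul'', Submodule.map_top, Submodule.range_subtype]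

theorem rad_coe_eq_bot {N : Submodule R Y} (h : Ring.jacobson R • N = ⊥) : rad R N = ⊥ := by
  apply Submodule.map_injective_of_injective N.injective_subtype
  rw [map_subtype_rad, Submodule.map_bot, h]

theorem eq_top_of_sup_rad [IsSemiprimaryRing R] {N : Submodule R Y} (h : N ⊔ rad R Y = ⊤) :
    N = ⊤ := by
  obtain ⟨n, hn⟩ := IsSemiprimaryRing.isNilpotent (R := R)
  have key : ∀ i : ℕ, N ⊔ (Ring.jacobson R ^ i) • (⊤ : Submodule R Y) = ⊤ := by
    intro i
    induction i with
    | zero => rw [Submodule.pow_zero, Ideal.one_eq_top, Submodule.top_smul, sup_top_eq]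
    | succ i ih =>
      apply le_antisymm le_top
      calc (⊤ : Submodule R Y) = N ⊔ (Ring.jacobson R ^ i) • (N ⊔ rad R Y) := by rw [h, ih]
        _ ≤ N ⊔ (Ring.jacobson R ^ (i + 1)) • (⊤ : Submodule R Y) := by
          rw [Submodule.smul_sup]
          refine sup_le le_sup_left (sup_le (Submodule.smul_le_right.trans le_sup_left) ?_)
          rw [rad, ← Submodule.mul_smul, ← Submodule.pow_succ]
          exact le_sup_right
  simpa [hn] using key n

theorem surjective_of_comp [IsSemiprimaryRing R] {W : Type*} [AddCommGroup W] [Module R W]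
    (σ : Y →ₗ[R] Z) (hσ : LinearMap.ker σ ≤ rad R Y) (f : W →ₗ[R] Y)
    (hf : Function.Surjective (σ ∘ₗ f)) : Function.Surjective f := by
  rw [← LinearMap.range_eq_top]
  apply eq_top_of_sup_rad (R := R)
  rw [eq_top_iff]
  intro y _
  obtain ⟨w, hw⟩ := hf (σ y)
  have : y - f w ∈ rad R Y := hσ (by simp [← hw])
  have h := Submodule.add_mem_sup (LinearMap.mem_range_self f w) this
  simpa using h

theorem eq_bot_of_rad_eq_top [IsSemiprimaryRing R] (h : rad R Y = ⊤) :
    (⊥ : Submodule R Y) = ⊤ :=
  eq_top_of_sup_rad (by simp [h])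

theorem rad_le_ker_of_rad_eq_bot (g : Y →ₗ[R] Z) (hZ : rad R Z = ⊥) :
    rad R Y ≤ LinearMap.ker g := by
  intro y hy
  simpa [hZ] using map_mem_rad g hy

theorem isSemisimpleModule_of_rad_eq_bot [IsSemiprimaryRing R] (h : rad R Y = ⊥) :
    IsSemisimpleModule R Y := by
  have ht : Module.IsTorsionBySet R Y (Ring.jacobson R : Set R) := by
    intro y a
    have : (a : R) • y ∈ rad R Y := Submodule.smul_mem_smul a.2 trivial
    simpa [h] using this
  let _ := ht.module
  exact (ht.semilinearMap.isSemisimpleModule_iff_of_bijective Function.bijective_id).2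
    inferInstance

theorem rad_quotient_rad : rad R (Y ⧸ rad R Y) = ⊥ := by
  have h : rad R (Y ⧸ rad R Y) ≤ (rad R Y).map (rad R Y).mkQ := by
    conv_lhs => rw [rad, ← Submodule.range_mkQ (rad R Y), ← Submodule.map_top,
      ← Submodule.map_smul'']
    exact le_rfl
  simpa using h

/-- Existence of projective covers over an Artinian ring, inside a free module. -/
theorem exists_cover [IsArtinianRing R] (X : Type*) [AddCommGroup X] [Module R X]
    [Module.Finite R X] :
    ∃ (n : ℕ) (P : Submodule R (Fin n → R)) (π : P →ₗ[R] X), Module.Projective R P ∧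
      Function.Surjective π ∧ LinearMap.ker π ≤ rad R P := by
  obtain ⟨n, p, hp⟩ := Module.Finite.exists_fin' R X
  obtain ⟨P, hP, hmin⟩ := wellFounded_lt.has_min {W : Submodule R (Fin n → R) | W.map p = ⊤}
    ⟨⊤, by simpa [LinearMap.range_eq_top] using hp⟩
  have hP' : P.map p = ⊤ := hP
  let π := p.domRestrict P
  have hπ : Function.Surjective π := by
    intro x
    obtain ⟨y, hy, rfl⟩ := (hP'.ge trivial : x ∈ P.map p)
    exact ⟨⟨y, hy⟩, rfl⟩
  have hmin' : ∀ W : Submodule R P, W.map π = ⊤ → W = ⊤ := by
    intro W hW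
    by_contra hne
    refine hmin (W.map P.subtype) ?_ ?_
    · rw [Set.mem_ofPred_eq, ← Submodule.map_comp]
      exact hW
    · exact lt_of_lt_of_eq (Submodule.map_strictMono_of_injective P.injective_subtype
        (lt_top_iff_ne_top.2 hne)) (by simp)
  obtain ⟨h, hh⟩ := Module.projective_lifting_property π p hπ
  let e : P →ₗ[R] P := h ∘ₗ P.subtype
  have he : Function.Surjective e := by
    rw [← LinearMap.range_eq_top]
    apply hmin'
    rw [← LinearMap.range_comp, LinearMap.range_eq_top]
    have : π ∘ₗ e = π := by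
      rw [← LinearMap.comp_assoc, hh]
      rfl
    rw [this]
    exact hπ
  have hei : Function.Injective e := IsNoetherian.injective_of_surjective_endomorphism e he
  let e' := LinearEquiv.ofBijective e ⟨hei, he⟩
  refine ⟨n, P, π, Module.Projective.of_split P.subtype (e'.symm.toLinearMap ∘ₗ h) ?_, hπ, ?_⟩
  · exact LinearMap.ext fun x => e'.symm_apply_apply x
  · have := isSemisimpleModule_of_rad_eq_bot (R := R) (Y := P ⧸ rad R P) rad_quotient_rad
    obtain ⟨C, hC⟩ := exists_isCompl ((LinearMap.ker π).map (rad R P).mkQ)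
    have hsup : C.comap (rad R P).mkQ ⊔ LinearMap.ker π = ⊤ := by
      rw [eq_top_iff]
      intro x _
      obtain ⟨a, ha, b, hb, hab⟩ := Submodule.mem_sup.1
        (hC.sup_eq_top.ge (trivial : (rad R P).mkQ x ∈ ⊤))
      obtain ⟨y, hy, rfl⟩ := ha
      refine Submodule.mem_sup.2 ⟨x - y, ?_, y, hy, by simp⟩
      rw [Submodule.mem_comap, map_sub, ← hab, add_sub_cancel_left]
      exact hb
    have hC' : C.comap (rad R P).mkQ = ⊤ := by
      apply hmin'
      have := congr_arg (Submodule.map π) hsup
      have hk : (LinearMap.ker π).map π = ⊥ := by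
        rw [Submodule.eq_bot_iff]
        rintro _ ⟨y, hy, rfl⟩
        exact hy
      rwa [Submodule.map_sup, hk, sup_bot_eq, Submodule.map_top,
        LinearMap.range_eq_top.2 hπ] at this
    intro x hx
    have h1 : (rad R P).mkQ x ∈ C := hC'.ge (trivial : x ∈ (⊤ : Submodule R P))
    have h2 := hC.disjoint.le_bot ⟨Submodule.mem_map_of_mem hx, h1⟩
    simpa using h2

end rad

section length

variable (k : Type v) [CommRing k] [IsArtinianRing k]

/-- The length over `k`, as a natural number. -/
noncomputable def ln (A : Type*) [AddCommGroup A] [Module k A] : ℕ := (Module.length k A).toNat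

variable {k}

theorem ln_congr {A B : Type*} [AddCommGroup A] [Module k A] [AddCommGroup B] [Module k B]
    (e : A ≃ₗ[k] B) : ln k A = ln k B := by rw [ln, ln, e.length_eq]

theorem ln_exact {A B C : Type*} [AddCommGroup A] [Module k A] [AddCommGroup B] [Module k B]
    [AddCommGroup C] [Module k C] [Module.Finite k A] [Module.Finite k C]
    (f : A →ₗ[k] B) (g : B →ₗ[k] C) (hf : Function.Injective f) (hg : Function.Surjective g)
    (H : ∀ b, g b = 0 ↔ ∃ a, f a = b) : ln k B = ln k A + ln k C := by
  rw [ln, ln, ln, Module.length_eq_add_of_exact f g hf hg H,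
    ENat.toNat_add Module.length_ne_top Module.length_ne_top]

theorem ln_lt_of_not_surjective {A B : Type*} [AddCommGroup A] [Module k A] [AddCommGroup B]
    [Module k B] [Module.Finite k A] [Module.Finite k B]
    (f : A →ₗ[k] B) (hf : Function.Injective f) (hs : ¬ Function.Surjective f) :
    ln k A < ln k B := by
  rw [ln, ln, (LinearEquiv.ofInjective f hf).length_eq]
  have h : LinearMap.range f ≠ ⊤ := fun h => hs (LinearMap.range_eq_top.1 h)
  have : Module.Finite k (LinearMap.range f) := inferInstance
  exact (ENat.coe_lt_coe).1 (by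
    rw [ENat.coe_toNat Module.length_ne_top, ENat.coe_toNat Module.length_ne_top]
    exact Submodule.length_lt h)

variable {R : Type u} [Ring R] [Algebra k R] [Module.Finite k R]
variable {X Y Y' : Type u} [AddCommGroup X] [Module R X] [AddCommGroup Y] [Module R Y]
  [Module k Y] [IsScalarTower k R Y] [AddCommGroup Y'] [Module R Y'] [Module k Y']
  [IsScalarTower k R Y']

instance homFinite [Module.Finite R X] [Module.Finite R Y] : Module.Finite k (X →ₗ[R] Y) := by
  obtain ⟨n, p, hp⟩ := Module.Finite.exists_fin' R X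
  have : Module.Finite k Y := Module.Finite.trans R Y
  let φ : (X →ₗ[R] Y) →ₗ[k] (Fin n → Y) :=
    { toFun := fun f i => f (p (Pi.single i 1))
      map_add' := fun f g => by ext i; simp
      map_smul' := fun c f => by ext i; simp }
  have hφ : Function.Injective φ := by
    intro f g h
    have h' : f ∘ₗ p = g ∘ₗ p := by
      apply LinearMap.pi_ext'
      intro i
      apply LinearMap.ext_ring
      exact congr_fun h i
    exact LinearMap.ext fun x => by
      obtain ⟨w, rfl⟩ := hp x
      exact LinearMap.congr_fun h' w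
  exact Module.Finite.of_injective φ hφ

variable (k) in
/-- Postcomposition. -/
def post (X : Type u) [AddCommGroup X] [Module R X] (g : Y →ₗ[R] Y') :
    (X →ₗ[R] Y) →ₗ[k] (X →ₗ[R] Y') where
  toFun f := g ∘ₗ f
  map_add' f f' := LinearMap.comp_add f f' g
  map_smul' c f := by
    ext x
    simp [LinearMap.map_smul_of_tower]

@[simp] theorem post_apply (g : Y →ₗ[R] Y') (f : X →ₗ[R] Y) : post k X g f = g ∘ₗ f := rfl

theorem ln_hom_congr (e : Y ≃ₗ[R] Y') : ln k (X →ₗ[R] Y) = ln k (X →ₗ[R] Y') :=
  ln_congr (LinearEquiv.ofBijective (post k X e.toLinearMap)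
    ⟨fun f g h => LinearMap.ext fun x => e.injective (LinearMap.congr_fun h x),
     fun f => ⟨e.symm.toLinearMap ∘ₗ f, by ext; simp⟩⟩)

variable (k X) in
theorem ln_hom_proj [Module.Finite R X] [Module.Projective R X] [Module.Finite R Y]
    (N : Submodule R Y) :
    ln k (X →ₗ[R] Y) = ln k (X →ₗ[R] N) + ln k (X →ₗ[R] Y ⧸ N) := by
  have : IsArtinianRing R := IsArtinianRing.of_finite k R
  refine ln_exact (post k X N.subtype) (post k X N.mkQ) ?_ ?_ ?_
  · exact fun f g h => LinearMap.ext fun x => N.injective_subtype (LinearMap.congr_fun h x)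
  · intro f
    exact Module.projective_lifting_property N.mkQ f N.mkQ_surjective
  · intro f
    constructor
    · intro h
      refine ⟨f.codRestrict N fun x => ?_, by ext; rfl⟩
      simpa using LinearMap.congr_fun h x
    · rintro ⟨g, rfl⟩
      ext x
      simp

end length

end Vale.Agent.P195
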