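import Vale.Agent.P195.HomLength
import Mathlib.Data.Rat.Cast.Lemmas
import Mathlib.Algebra.BigOperators.Pi

/-!
A finite family of simple modules through which all Hom lengths out of projectives are linear.
-/

universe u v

namespace Vale.Agent.P195

variable (R : Type u) [Ring R] [IsArtinianRing R]

theorem exists_simples :
    ∃ (n : ℕ) (s : Fin (n + 1) → Submodule R R),
      (∀ i : Fin n, s i.castSucc ⋖ s i.succ) ∧ s 0 = ⊥ ∧ s (Fin.last n) = ⊤ := by
  obtain ⟨c, h₁, h₂⟩ := isFiniteLength_iff_exists_compositionSeries.1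
    ((isArtinianRing_iff_isFiniteLength R).1 inferInstance)
  exact ⟨c.length, c.toFun, c.step, h₁, h₂⟩

/-- The number of factors of a fixed composition series of `R`. -/
noncomputable def nSimple : ℕ := (exists_simples R).choose

/-- A fixed composition series of `R`. -/
noncomputable def ser : Fin (nSimple R + 1) → Submodule R R :=
  (exists_simples R).choose_spec.choose

theorem ser_spec :
    (∀ i : Fin (nSimple R), ser R i.castSucc ⋖ ser R i.succ) ∧ ser R 0 = ⊥ ∧
      ser R (Fin.last _) = ⊤ :=
  (exists_simples R).choose_spec.choose_spec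

/-- The simple factors. -/
abbrev Simple (v : Fin (nSimple R)) : Type u :=
  ↥(ser R v.succ) ⧸ (ser R v.castSucc).comap (ser R v.succ).subtype

instance instIsSimple (v : Fin (nSimple R)) : IsSimpleModule R (Simple R v) :=
  (covBy_iff_quot_is_simple ((ser_spec R).1 v).le).1 ((ser_spec R).1 v)

theorem exists_equiv_simple (T : Type u) [AddCommGroup T] [Module R T] [IsSimpleModule R T] :
    ∃ v, Nonempty (Simple R v ≃ₗ[R] T) := by
  by_contra hne
  have := IsSimpleModule.nontrivial R T
  obtain ⟨t, ht⟩ := exists_ne (0 : T)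
  let f := LinearMap.toSpanSingleton R T t
  have key : ∀ i, ser R i ≤ LinearMap.ker f := by
    intro i
    induction i using Fin.induction with
    | zero => simp [(ser_spec R).2.1]
    | succ i ih =>
      let g : ser R i.succ →ₗ[R] T := f ∘ₗ (ser R i.succ).subtype
      let g' : Simple R i →ₗ[R] T :=
        ((ser R i.castSucc).comap (ser R i.succ).subtype).liftQ g (fun x hx => ih hx)
      by_cases h : g' = 0
      · intro x hx
        exact LinearMap.congr_fun h (Submodule.Quotient.mk ⟨x, hx⟩)
      · exact absurd ⟨i, ⟨LinearEquiv.ofBijective g' (LinearMap.bijective_of_ne_zero h)⟩⟩ hne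
  refine ht ?_
  have h1 : f 1 = 0 := key (Fin.last _) ((ser_spec R).2.2.ge trivial)
  simpa [f] using h1

variable (k : Type v) [CommRing k] [IsArtinianRing k] [Algebra k R] [Module.Finite k R]

/-- `Hom` length, linear in the coordinates given by the simple factors. -/
theorem exists_coeff (Y : Type u) [AddCommGroup Y] [Module R Y] [Module k Y]
    [IsScalarTower k R Y] [Module.Finite R Y] :
    ∃ c : (Fin (nSimple R) → ℚ) →ₗ[ℚ] ℚ, ∀ (P : Type u) [AddCommGroup P] [Module R P]
      [Module.Finite R P] [Module.Projective R P],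
      (ln k (P →ₗ[R] Y) : ℚ) = c (fun v => (ln k (P →ₗ[R] Simple R v) : ℚ)) := by
  suffices h : ∀ W : Submodule R Y,
      ∃ c : (Fin (nSimple R) → ℚ) →ₗ[ℚ] ℚ, ∀ (P : Type u) [AddCommGroup P] [Module R P]
      [Module.Finite R P] [Module.Projective R P],
      (ln k (P →ₗ[R] W) : ℚ) = c (fun v => (ln k (P →ₗ[R] Simple R v) : ℚ)) by
    obtain ⟨c, hc⟩ := h ⊤
    refine ⟨c, fun P _ _ _ _ => ?_⟩
    rw [← hc P, ln_hom_congr (Submodule.topEquiv (R := R) (M := Y))]
  intro W
  induction W using WellFoundedLT.induction with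
  | _ W ih =>
    rcases eq_or_ne W ⊥ with rfl | hW
    · refine ⟨0, fun P _ _ _ _ => ?_⟩
      have : Subsingleton (P →ₗ[R] (⊥ : Submodule R Y)) :=
        ⟨fun f g => LinearMap.ext fun x => Subsingleton.elim _ _⟩
      simp [ln]
    · have : Nontrivial W := Submodule.nontrivial_iff_ne_bot.2 hW
      obtain ⟨N, hN⟩ := (eq_top_or_exists_le_coatom (⊥ : Submodule R W)).resolve_left bot_ne_top
      have : IsSimpleModule R (W ⧸ N) := isSimpleModule_iff_isCoatom.2 hN.1
      obtain ⟨v, ⟨e⟩⟩ := exists_equiv_simple R (W ⧸ N)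
      obtain ⟨c, hc⟩ := ih (N.map W.subtype) (lt_of_lt_of_eq
        (Submodule.map_strictMono_of_injective W.injective_subtype hN.1.lt_top) (by simp))
      refine ⟨c + LinearMap.proj v, fun P _ _ _ _ => ?_⟩
      rw [ln_hom_proj k P N, ← ln_hom_congr e,
        ln_hom_congr (Submodule.equivMapOfInjective W.subtype W.injective_subtype N)]
      simp [← hc P]

end Vale.Agent.P195
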